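import Vale.Agent.P172.Defs

/-! Comparison of triangles from Stewart type relations. -/

namespace Vale.Agent.P172

open Set Real

variable {M X : Type} [MetricSpace M] [MetricSpace X]

/-- One comparison step. -/
def Step (M X : Type) [MetricSpace M] [MetricSpace X] : Prop :=
  ∀ (x p y z : X) (x' p' y' z' : M), 0 < dist x p → 0 < dist p y →
    dist x p + dist p y = dist x y → dist x' p' + dist p' y' = dist x' y' →
    dist x' p' = dist x p → dist p' y' = dist p y → dist x z ≤ dist x' z' →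
    dist y z ≤ dist y' z' → dist p z ≤ dist p' z'

/-- The hyperbolic Stewart relation. -/
def Stew (X : Type) [MetricSpace X] : Prop :=
  ∀ x p y z : X, dist x p + dist p y = dist x y →
    sinh (dist x p + dist p y) * cosh (dist p z) =
      sinh (dist p y) * cosh (dist x z) + sinh (dist x p) * cosh (dist y z)

theorem IsSeg.left {c : ℝ → X} {x y : X} (h : IsSeg c x y) {s : ℝ} (hs : s ∈ Icc 0 (dist x y)) :
    dist x (c s) = s := by
  have := h.2.2 0 ⟨le_rfl, dist_nonneg⟩ s hs
  rwa [h.1, zero_sub, abs_neg, abs_of_nonneg hs.1] at this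

theorem IsSeg.right {c : ℝ → X} {x y : X} (h : IsSeg c x y) {s : ℝ} (hs : s ∈ Icc 0 (dist x y)) :
    dist (c s) y = dist x y - s := by
  have := h.2.2 s hs _ ⟨dist_nonneg, le_rfl⟩
  rwa [h.2.1, abs_sub_comm, abs_of_nonneg (sub_nonneg.2 hs.2)] at this

theorem Step.seg (h : Step M X) {c : ℝ → X} {x y z : X} {e : ℝ → M} {x' y' z' : M}
    (hc : IsSeg c x y) (he : IsSeg e x' y') (hd : dist x' y' = dist x y) {s : ℝ}
    (hs : s ∈ Icc 0 (dist x y)) (h1 : dist x z ≤ dist x' z') (h2 : dist y z ≤ dist y' z') :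
    dist (c s) z ≤ dist (e s) z' := by
  have hs' : s ∈ Icc 0 (dist x' y') := hd ▸ hs
  rcases hs.1.eq_or_lt with rfl | h0
  · rwa [hc.1, he.1]
  rcases hs.2.eq_or_lt with rfl | h3
  · rw [hc.2.1, ← hd, he.2.1]
    exact h2
  refine h x _ y z x' _ y' z' ?_ ?_ ?_ ?_ ?_ ?_ h1 h2
  · rwa [hc.left hs]
  · rw [hc.right hs]; linarith
  · rw [hc.left hs, hc.right hs]; ring
  · rw [he.left hs', he.right hs']; ring
  · rw [hc.left hs, he.left hs']
  · rw [hc.right hs, he.right hs', hd]

theorem Step.cat (h : Step M X) (hg : ∀ x y : X, ∃ c, IsSeg c x y) : CAT M X := by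
  refine ⟨hg, fun v c w e hc he hd i j s hs t ht => ?_⟩
  have h0 : ∀ i k, dist (v i) (v k) ≤ dist (w i) (w k) := by
    have a0 : dist (w 0) (w 1) = dist (v 0) (v 1) := hd 0
    have a1 : dist (w 1) (w 2) = dist (v 1) (v 2) := hd 1
    have a2 : dist (w 2) (w 0) = dist (v 2) (v 0) := hd 2
    have b0 : dist (w 1) (w 0) = dist (v 1) (v 0) := by rw [dist_comm, a0, dist_comm]
    have b1 : dist (w 2) (w 1) = dist (v 2) (v 1) := by rw [dist_comm, a1, dist_comm]
    have b2 : dist (w 0) (w 2) = dist (v 0) (v 2) := by rw [dist_comm, a2, dist_comm]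
    intro i k
    fin_cases i <;> fin_cases k
    exacts [by simp, a0.ge, b2.ge, b0.ge, by simp, a1.ge, a2.ge, b1.ge, by simp]
  have h1 : ∀ k, dist (v k) (c j t) ≤ dist (w k) (e j t) := fun k => by
    rw [dist_comm, dist_comm (w k)]
    exact h.seg (hc j) (he j) (hd j) ht (h0 _ _) (h0 _ _)
  exact h.seg (hc i) (he i) (hd i) hs (h1 _) (h1 _)

theorem Stew.step (hX : Stew X) (hM : Stew M) : Step M X := by
  intro x p y z x' p' y' z' ha hb h1 h2 e1 e2 h3 h4
  have k1 := hX x p y z h1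
  have k2 := hM x' p' y' z' h2
  rw [e1, e2] at k2
  have c1 : cosh (dist x z) ≤ cosh (dist x' z') := cosh_le_cosh.2 (by
    rwa [abs_of_nonneg dist_nonneg, abs_of_nonneg dist_nonneg])
  have c2 : cosh (dist y z) ≤ cosh (dist y' z') := cosh_le_cosh.2 (by
    rwa [abs_of_nonneg dist_nonneg, abs_of_nonneg dist_nonneg])
  have s1 : 0 < sinh (dist x p) := sinh_pos_iff.2 ha
  have s2 : 0 < sinh (dist p y) := sinh_pos_iff.2 hb
  have s3 : 0 < sinh (dist x p + dist p y) := sinh_pos_iff.2 (by linarith)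
  have c3 : cosh (dist p z) ≤ cosh (dist p' z') := by
    refine le_of_mul_le_mul_left ?_ s3
    rw [k1, k2]
    exact add_le_add (mul_le_mul_of_nonneg_left c1 s2.le) (mul_le_mul_of_nonneg_left c2 s1.le)
  have := cosh_le_cosh.1 c3
  rwa [abs_of_nonneg dist_nonneg, abs_of_nonneg dist_nonneg] at this

/-- Convexity of `cosh` as a function of the square of its argument. -/
theorem sq_le_of_cosh {u α β l m : ℝ} (hl : 0 ≤ l) (hm : 0 ≤ m) (h1 : l + m = 1)
    (h : cosh u = l * cosh α + m * cosh β) : l * α ^ 2 + m * β ^ 2 ≤ u ^ 2 := by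
  have h0 : 0 ≤ l * α ^ 2 + m * β ^ 2 := by positivity
  have h2 : cosh (√(l * α ^ 2 + m * β ^ 2)) ≤ cosh u := by
    rw [h]
    refine hasSum_le (fun n => ?_) (hasSum_cosh _)
      (((hasSum_cosh α).mul_left l).add ((hasSum_cosh β).mul_left m))
    have h3 := (convexOn_pow n).2 (mem_Ici.2 (sq_nonneg α)) (mem_Ici.2 (sq_nonneg β)) hl hm h1
    simp only [smul_eq_mul] at h3
    rw [pow_mul, pow_mul, pow_mul, sq_sqrt h0, ← mul_div_assoc, ← mul_div_assoc, ← add_div]
    exact div_le_div_of_nonneg_right h3 (by positivity)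
  have h4 := cosh_le_cosh.1 h2
  rw [← sq_sqrt h0]
  exact sq_le_sq.2 h4

theorem Stew.cn (hX : Stew X) {x p y : X} (z : X) (ha : 0 < dist x p)
    (h : dist x p + dist p y = dist x y) :
    (dist x p + dist p y) * (dist p z ^ 2 + dist x p * dist p y) ≤
      dist p y * dist x z ^ 2 + dist x p * dist y z ^ 2 := by
  have k := hX x p y z h
  have t1 : |dist x p - dist p z| ≤ dist x z := by
    have := abs_dist_sub_le x z p
    rwa [dist_comm z p] at this
  have t2 := dist_triangle x p z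
  have hb : 0 ≤ dist p y := dist_nonneg
  have hw : 0 ≤ dist p z := dist_nonneg
  have hu : 0 ≤ dist x z := dist_nonneg
  generalize dist x p = a at *
  generalize dist p y = b at *
  generalize dist p z = w at *
  generalize dist x z = u at *
  generalize dist y z = v at *
  have c1 : cosh (a - w) ≤ cosh u := cosh_le_cosh.2 (by rwa [abs_of_nonneg hu])
  have c2 : cosh u ≤ cosh (a + w) := cosh_le_cosh.2 (by
    rwa [abs_of_nonneg hu, abs_of_nonneg (by linarith)])
  have c3 : cosh u ∈ segment ℝ (cosh (a - w)) (cosh (a + w)) := by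
    rw [segment_eq_Icc (c1.trans c2)]
    exact ⟨c1, c2⟩
  obtain ⟨l, m, hl, hm, h1, h2⟩ := c3
  simp only [smul_eq_mul] at h2
  have s1 : 0 < sinh a := sinh_pos_iff.2 ha
  have h3 : cosh v = l * cosh (b + w) + m * cosh (b - w) := by
    refine mul_left_cancel₀ s1.ne' ?_
    rw [← h2, sinh_add, cosh_sub, cosh_add] at k
    rw [cosh_add, cosh_sub]
    obtain rfl : m = 1 - l := by linarith
    linear_combination -k
  have e1 := sq_le_of_cosh hl hm h1 h2.symm
  have e2 := sq_le_of_cosh hl hm h1 h3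
  have e3 := mul_le_mul_of_nonneg_left e1 hb
  have e4 := mul_le_mul_of_nonneg_left e2 ha.le
  obtain rfl : m = 1 - l := by linarith
  nlinarith [e3, e4]

theorem Stew.step0 (hX : Stew X) : Step (EuclideanSpace ℝ (Fin 2)) X := by
  intro x p y z x' p' y' z' ha hb h1 h2 e1 e2 h3 h4
  have k1 := hX.cn z ha h1
  have hs : Sbtw ℝ x' p' y' := ⟨dist_add_dist_eq_iff.1 h2,
    fun e => by rw [e, dist_self] at e1; linarith, fun e => by rw [e, dist_self] at e2; linarith⟩
  have k2 := EuclideanGeometry.dist_sq_mul_dist_add_dist_sq_mul_dist z' x' y' p'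
    hs.angle₁₂₃_eq_pi
  rw [← h2, dist_comm z' x', dist_comm z' y', dist_comm z' p', dist_comm y' p', e1, e2] at k2
  have c1 := mul_le_mul_of_nonneg_left (pow_le_pow_left₀ dist_nonneg h3 2) hb.le
  have c2 := mul_le_mul_of_nonneg_left (pow_le_pow_left₀ dist_nonneg h4 2) ha.le
  have c3 : dist p z ^ 2 ≤ dist p' z' ^ 2 := by
    refine le_of_mul_le_mul_left ?_ (add_pos ha hb)
    nlinarith
  exact (pow_le_pow_iff_left₀ dist_nonneg dist_nonneg two_ne_zero).1 c3

end Vale.Agent.P172
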