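import Mathlib

/-! Geodesic spaces, comparison triangles and geometric actions. -/

namespace Vale.Agent.P172

open Set

/-- `c` restricted to `[0, dist x y]` is a unit speed geodesic from `x` to `y`. -/
def IsSeg {X : Type} [MetricSpace X] (c : ℝ → X) (x y : X) : Prop :=
  c 0 = x ∧ c (dist x y) = y ∧
    ∀ s ∈ Icc 0 (dist x y), ∀ t ∈ Icc 0 (dist x y), dist (c s) (c t) = |s - t|

/-- `X` is geodesic, and every geodesic triangle of `X` (vertices `v i`, sides `c i`) is no fatter
than its comparison triangle (vertices `w i`, sides `e i`) in the model plane `M`. -/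
def CAT (M X : Type) [MetricSpace M] [MetricSpace X] : Prop :=
  (∀ x y : X, ∃ c, IsSeg c x y) ∧
    ∀ (v : Fin 3 → X) (c : Fin 3 → ℝ → X) (w : Fin 3 → M) (e : Fin 3 → ℝ → M),
      (∀ i, IsSeg (c i) (v i) (v (i + 1))) → (∀ i, IsSeg (e i) (w i) (w (i + 1))) →
      (∀ i, dist (w i) (w (i + 1)) = dist (v i) (v (i + 1))) →
      ∀ i j, ∀ s ∈ Icc 0 (dist (v i) (v (i + 1))), ∀ t ∈ Icc 0 (dist (v j) (v (j + 1))),
        dist (c i s) (c j t) ≤ dist (e i s) (e j t)

/-- A properly discontinuous and cocompact action by isometries. -/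
def GeomAct {G : Type*} [Group G] {X : Type} [MetricSpace X] (ρ : G →* (X ≃ᵢ X)) : Prop :=
  (∀ K : Set X, IsCompact K → {g : G | (ρ g '' K ∩ K).Nonempty}.Finite) ∧
    ∃ K : Set X, IsCompact K ∧ ⋃ g : G, ρ g '' K = univ

end Vale.Agent.P172
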