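import Vale.Agent.P172.Hyp

/-! Chains that stay far from a point are seen under a small angle; convex hulls. -/

namespace Vale.Agent.P172

open Set Real Vale.Agent.P198 Topology

theorem hB_pos (p q : H3) : 0 < hB p q := one_pos.trans_le (one_le_hB p q)

theorem hB_cont (x : H3) : Continuous fun q => hB q x := by
  simp only [hB_comm _ x, ← cosh_hdist]
  exact continuous_cosh.comp (hdist_cont x)

theorem hB_tri (p q r : H3) : hB p r ≤ 2 * hB p q * hB q r := by
  have h1 : cosh (hdist p r) ≤ cosh (hdist p q + hdist q r) := cosh_le_cosh.2 (by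
    rw [abs_of_nonneg (hdist_nonneg _ _),
      abs_of_nonneg (add_nonneg (hdist_nonneg _ _) (hdist_nonneg _ _))]
    exact hdist_tri p q r)
  have h2 := mul_le_mul (sinh_lt_cosh (hdist p q)).le (sinh_lt_cosh (hdist q r)).le
    (sinh_nonneg_iff.2 (hdist_nonneg _ _)) (cosh_pos _).le
  rw [cosh_add] at h1
  simp only [cosh_hdist] at h1 h2
  linarith

/-- The squared distance in the projective model centred at `p`. -/
theorem hK_sq (p x y : H3) :
    (hV p x 0 / hB x p - hV p y 0 / hB y p) ^ 2 + (hV p x 1 / hB x p - hV p y 1 / hB y p) ^ 2 +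
      (hV p x 2 / hB x p - hV p y 2 / hB y p) ^ 2 =
      2 * hB x y / (hB x p * hB y p) - 1 / hB x p ^ 2 - 1 / hB y p ^ 2 := by
  have h1 := hB_dec p x y
  have h2 := hB_dec p x x
  have h3 := hB_dec p y y
  have h4 := (hB_pos x p).ne'
  have h5 := (hB_pos y p).ne'
  rw [hB_self] at h2 h3
  rw [h1]
  field_simp
  linear_combination hB y p ^ 2 * h2 + hB x p ^ 2 * h3

theorem hK_step {p x y : H3} {L : ℝ} (h : hB x y ≤ L) (c : Fin 3) :
    |hV p x c / hB x p - hV p y c / hB y p| ≤ 2 * L / hB x p := by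
  have h1 := hK_sq p x y
  have h4 := hB_pos x p
  have h5 := hB_pos y p
  have h6 := hB_pos x y
  have h7 := hB_tri x y p
  have h8 : 2 * hB x y / (hB x p * hB y p) ≤ (2 * L / hB x p) ^ 2 := by
    rw [div_pow, div_le_div_iff₀ (by positivity) (by positivity)]
    have a1 : hB x y * hB x y ≤ L * L := mul_le_mul h h h6.le (h6.le.trans h)
    have a2 := mul_le_mul_of_nonneg_left h7 (by positivity : 0 ≤ 2 * hB x y * hB x p)
    have a3 := mul_le_mul_of_nonneg_right a1 (by positivity : 0 ≤ 4 * (hB x p * hB y p))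
    nlinarith
  have h9 : 0 ≤ 1 / hB x p ^ 2 := by positivity
  have h10 : 0 ≤ 1 / hB y p ^ 2 := by positivity
  refine abs_le.2 (abs_le_of_sq_le_sq' ?_ (by have := h6.trans_le h; positivity))
  have s0 := sq_nonneg (hV p x 0 / hB x p - hV p y 0 / hB y p)
  have s1 := sq_nonneg (hV p x 1 / hB x p - hV p y 1 / hB y p)
  have s2 := sq_nonneg (hV p x 2 / hB x p - hV p y 2 / hB y p)
  fin_cases c
  · show (hV p x 0 / hB x p - hV p y 0 / hB y p) ^ 2 ≤ _
    linarith
  · show (hV p x 1 / hB x p - hV p y 1 / hB y p) ^ 2 ≤ _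
    linarith
  · show (hV p x 2 / hB x p - hV p y 2 / hB y p) ^ 2 ≤ _
    linarith

theorem exp_le_hB (p q : H3) : exp (hdist p q) ≤ 2 * hB p q := by
  rw [← cosh_hdist, cosh_eq]
  linarith [exp_pos (-hdist p q)]

theorem chain_far (L : ℝ) {A : ℝ} (hA : 0 < A) : ∃ D : ℝ, ∀ (p : H3) (y : ℕ → H3) (n : ℕ),
    (∀ i < n, hB (y i) (y (i + 1)) ≤ L) →
    (∀ i ≤ n, ∀ j ≤ n, |(i : ℝ) - j| ≤ A * hdist (y i) (y j) + A) →
    (∀ i ≤ n, D ≤ hdist (y i) p) → hB (y n) (y 0) ≤ hB (y 0) p / 2 * hB (y n) p := by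
  have hs0 : Summable fun n : ℕ => exp (n * (-1 / (4 * A))) :=
    summable_exp_nat_mul_iff.2 (div_neg_of_neg_of_pos (by norm_num) (by positivity))
  have hs : Summable fun m : ℤ => exp (|(m : ℝ)| * (-1 / (4 * A))) :=
    Summable.of_nat_of_neg (by simpa using hs0) (by simpa using hs0)
  set C := ∑' m : ℤ, exp (|(m : ℝ)| * (-1 / (4 * A))) with hC
  have hC0 : 0 ≤ C := tsum_nonneg fun _ => (exp_pos _).le
  set M := 16 * |L| * exp (1 / 4) * C with hM
  have hM0 : 0 ≤ M := by positivity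
  refine ⟨2 * (M + 1), fun p y n h1 h2 h3 => ?_⟩
  have hE : M + 2 ≤ exp (M + 1) := by linarith [add_one_le_exp (M + 1)]
  obtain ⟨i₀, hi₀, hm⟩ := (Finset.range (n + 1)).exists_min_image (fun i => hdist (y i) p)
    ⟨0, by simp⟩
  have hw : ∀ i < n, 1 / hB (y i) p ≤ 2 * exp (1 / 4) / exp (M + 1) *
      exp (|(((i : ℤ) - i₀ : ℤ) : ℝ)| * (-1 / (4 * A))) := by
    intro i hi
    have a1 := h2 i hi.le i₀ (Nat.lt_succ_iff.1 (Finset.mem_range.1 hi₀))
    have a2 := hdist_tri (y i) p (y i₀)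
    have a3 := hm i (Finset.mem_range.2 (by omega))
    rw [hdist_comm p] at a2
    have a4 : |(i : ℝ) - i₀| ≤ A * (2 * hdist (y i) p) + A :=
      a1.trans (by gcongr; linarith)
    have a5 : |(i : ℝ) - i₀| * (1 / (4 * A)) ≤ hdist (y i) p / 2 + 1 / 4 := by
      rw [mul_one_div, div_le_iff₀ (by positivity)]
      linarith
    have a6 := h3 i hi.le
    have a7 := exp_le_hB (y i) p
    rw [div_le_iff₀ (hB_pos _ _), mul_div_assoc, ← exp_sub, mul_assoc 2, ← exp_add]
    have a8 : 1 ≤ exp (1 / 4 - (M + 1) + |(((i : ℤ) - i₀ : ℤ) : ℝ)| * (-1 / (4 * A))) *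
        exp (hdist (y i) p) := by
      rw [← exp_add]
      refine one_le_exp ?_
      push_cast
      rw [neg_div]
      linarith
    nlinarith [exp_pos (1 / 4 - (M + 1) + |(((i : ℤ) - i₀ : ℤ) : ℝ)| * (-1 / (4 * A)))]
  have hsum : ∑ i ∈ Finset.range n, exp (|(((i : ℤ) - i₀ : ℤ) : ℝ)| * (-1 / (4 * A))) ≤ C := by
    rw [← Finset.sum_image (s := Finset.range n) (g := fun i : ℕ => (i : ℤ) - i₀)
      (f := fun m : ℤ => exp (|(m : ℝ)| * (-1 / (4 * A)))) fun a _ b _ e => by simpa using e]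
    exact hs.sum_le_tsum _ fun _ _ => (exp_pos _).le
  have hc : ∀ c, |hV p (y 0) c / hB (y 0) p - hV p (y n) c / hB (y n) p| ≤ 1 / 4 := by
    intro c
    refine (dist_le_range_sum_dist (fun i => hV p (y i) c / hB (y i) p) n).trans ?_
    refine le_trans (Finset.sum_le_sum (g := fun i : ℕ => 2 * |L| * (2 * exp (1 / 4) / exp (M + 1) *
      exp (|(((i : ℤ) - i₀ : ℤ) : ℝ)| * (-1 / (4 * A))))) fun i hi => ?_) ?_
    · refine (hK_step ((h1 i (Finset.mem_range.1 hi)).trans (le_abs_self L)) c).trans ?_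
      rw [← mul_one_div]
      exact mul_le_mul_of_nonneg_left (hw i (Finset.mem_range.1 hi)) (by positivity)
    · rw [← Finset.mul_sum, ← Finset.mul_sum]
      refine (mul_le_mul_of_nonneg_left (mul_le_mul_of_nonneg_left hsum (by positivity))
        (by positivity)).trans ?_
      rw [show 2 * |L| * (2 * exp (1 / 4) / exp (M + 1) * C) = M / 4 / exp (M + 1) by
        rw [hM]; ring, div_le_iff₀ (exp_pos _)]
      linarith
  have hb : ∀ i ≤ n, 1 / hB (y i) p ^ 2 ≤ 1 / 4 := by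
    intro i hi
    have a1 := (exp_le_exp.2 (h3 i hi)).trans (exp_le_hB (y i) p)
    rw [two_mul, exp_add] at a1
    have a2 : 2 ≤ hB (y i) p := by nlinarith
    exact one_div_le_one_div_of_le (by norm_num) (by nlinarith)
  have k := hK_sq p (y 0) (y n)
  have k0 := sq_le_sq' (abs_le.1 (hc 0)).1 (abs_le.1 (hc 0)).2
  have k1 := sq_le_sq' (abs_le.1 (hc 1)).1 (abs_le.1 (hc 1)).2
  have k2 := sq_le_sq' (abs_le.1 (hc 2)).1 (abs_le.1 (hc 2)).2
  have k3 : 2 * hB (y 0) (y n) / (hB (y 0) p * hB (y n) p) ≤ 1 := by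
    linarith [hb 0 (Nat.zero_le n), hb n le_rfl]
  rw [div_le_one (mul_pos (hB_pos _ _) (hB_pos _ _))] at k3
  rw [hB_comm (y n)]
  linarith

/-- The intersection of the half spaces that contain `Z`. -/
def hull (Z : Set H3) : Set H3 :=
  {q | ∀ (a b : H3) (α : ℝ), (∀ z ∈ Z, hB z a ≤ α * hB z b) → hB q a ≤ α * hB q b}

theorem hull_closed (Z : Set H3) : IsClosed (hull Z) := by
  simp only [hull, setOf_forall]
  exact isClosed_iInter fun a => isClosed_iInter fun b => isClosed_iInter fun α =>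
    isClosed_iInter fun _ => isClosed_le (hB_cont a) (continuous_const.mul (hB_cont b))

theorem hull_conv {Z : Set H3} {x p y : H3} (hx : x ∈ hull Z) (hy : y ∈ hull Z)
    (h : hdist x p + hdist p y = hdist x y) : p ∈ hull Z := by
  rcases (hdist_nonneg x p).eq_or_lt with h0 | h0
  · rwa [← eq_of_hB (p := x) (q := p) (by rw [← cosh_hdist, ← h0, cosh_zero])]
  intro a b α hz
  have k1 := hdist_stew x p y a h
  have k2 := hdist_stew x p y b h
  simp only [cosh_hdist] at k1 k2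
  have s1 : 0 ≤ sinh (hdist x p) := sinh_nonneg_iff.2 h0.le
  have s2 : 0 ≤ sinh (hdist p y) := sinh_nonneg_iff.2 (hdist_nonneg _ _)
  have s3 : 0 < sinh (hdist x p + hdist p y) :=
    sinh_pos_iff.2 (add_pos_of_pos_of_nonneg h0 (hdist_nonneg _ _))
  refine le_of_mul_le_mul_left ?_ s3
  have e1 := mul_le_mul_of_nonneg_left (hx a b α hz) s2
  have e2 := mul_le_mul_of_nonneg_left (hy a b α hz) s1
  rw [k1, mul_left_comm, k2]
  linarith

end Vale.Agent.P172
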