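import Vale.Agent.P172.Cmp
import Vale.Agent.P198.Stmt

/-! Hyperbolic three-space as a proper geodesic metric space. -/

namespace Vale.Agent.P172

open Set Real Vale.Agent.P198 Topology

/-- The hyperbolic cosine of the distance. -/
noncomputable def hB (p q : H3) : ℝ :=
  1 + (‖p.1.1 - q.1.1‖ ^ 2 + (p.1.2 - q.1.2) ^ 2) / (2 * p.1.2 * q.1.2)

theorem hB_eq (p q : H3) : hB p q = 1 + ((p.1.1.re - q.1.1.re) ^ 2 + (p.1.1.im - q.1.1.im) ^ 2 +
    (p.1.2 - q.1.2) ^ 2) / (2 * p.1.2 * q.1.2) := by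
  rw [hB, Complex.sq_norm, Complex.normSq_apply, Complex.sub_re, Complex.sub_im]
  ring

theorem one_le_hB (p q : H3) : 1 ≤ hB p q := by
  have h1 := p.2
  have h2 := q.2
  unfold hB
  exact le_add_of_nonneg_right (by positivity)

theorem hB_self (p : H3) : hB p p = 1 := by simp [hB]

theorem hB_comm (p q : H3) : hB p q = hB q p := by
  rw [hB_eq, hB_eq]
  ring

theorem cosh_hdist (p q : H3) : cosh (hdist p q) = hB p q := cosh_arcosh (one_le_hB p q)

theorem hdist_nonneg (p q : H3) : 0 ≤ hdist p q := arcosh_nonneg (one_le_hB p q)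

theorem hdist_of {p q : H3} {r : ℝ} (h : hB p q = cosh r) : hdist p q = |r| := by
  have : hdist p q = arcosh (cosh |r|) := by rw [cosh_abs, ← h]; rfl
  rw [this, arcosh_cosh (abs_nonneg r)]

theorem eq_of_hB {p q : H3} (h : hB p q = 1) : p = q := by
  have h1 := p.2
  have h2 := q.2
  have h3 : (‖p.1.1 - q.1.1‖ ^ 2 + (p.1.2 - q.1.2) ^ 2) / (2 * p.1.2 * q.1.2) = 0 := by
    unfold hB at h
    linarith
  rw [div_eq_zero_iff, or_iff_left (by positivity)] at h3
  have h4 : ‖p.1.1 - q.1.1‖ ^ 2 = 0 := by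
    linarith [sq_nonneg ‖p.1.1 - q.1.1‖, sq_nonneg (p.1.2 - q.1.2)]
  have h5 : (p.1.2 - q.1.2) ^ 2 = 0 := by linarith
  exact Subtype.ext (Prod.ext (sub_eq_zero.1 (norm_eq_zero.1 (pow_eq_zero_iff two_ne_zero |>.1 h4)))
    (sub_eq_zero.1 (pow_eq_zero_iff two_ne_zero |>.1 h5)))

/-- The direction of `p` seen from `q`. -/
noncomputable def hV (q p : H3) : Fin 3 → ℝ :=
  ![(p.1.1.re - q.1.1.re) / p.1.2, (p.1.1.im - q.1.1.im) / p.1.2, q.1.2 / p.1.2 - hB p q]

theorem hB_dec (q p r : H3) : hB p r = hB p q * hB r q -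
    (hV q p 0 * hV q r 0 + hV q p 1 * hV q r 1 + hV q p 2 * hV q r 2) := by
  have h1 := p.2.ne'
  have h2 := q.2.ne'
  have h3 := r.2.ne'
  simp only [hV, Matrix.cons_val_zero, Matrix.cons_val_one, Matrix.cons_val, hB_eq]
  field_simp
  ring

theorem hV_sq (q p : H3) : hV q p 0 ^ 2 + hV q p 1 ^ 2 + hV q p 2 ^ 2 = sinh (hdist p q) ^ 2 := by
  have := hB_dec q p p
  rw [hB_self] at this
  rw [sinh_sq, cosh_hdist]
  linarith

theorem hdist_comm (p q : H3) : hdist p q = hdist q p := congrArg arcosh (hB_comm p q)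

theorem hdist_tri (p q r : H3) : hdist p r ≤ hdist p q + hdist q r := by
  have h1 := hB_dec q p r
  have h2 := hV_sq q p
  have h3 := hV_sq q r
  have s1 : 0 ≤ sinh (hdist p q) := sinh_nonneg_iff.2 (hdist_nonneg _ _)
  have s2 : 0 ≤ sinh (hdist r q) := sinh_nonneg_iff.2 (hdist_nonneg _ _)
  have h4 : -(hV q p 0 * hV q r 0 + hV q p 1 * hV q r 1 + hV q p 2 * hV q r 2) ≤
      sinh (hdist p q) * sinh (hdist r q) := by
    refine le_of_sq_le_sq ?_ (mul_nonneg s1 s2)
    rw [mul_pow, ← h2, ← h3]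
    nlinarith [sq_nonneg (hV q p 0 * hV q r 1 - hV q p 1 * hV q r 0),
      sq_nonneg (hV q p 0 * hV q r 2 - hV q p 2 * hV q r 0),
      sq_nonneg (hV q p 1 * hV q r 2 - hV q p 2 * hV q r 1)]
  have h5 : cosh (hdist p r) ≤ cosh (hdist p q + hdist r q) := by
    rw [cosh_add, cosh_hdist, cosh_hdist, cosh_hdist]
    linarith
  have := cosh_le_cosh.1 h5
  rwa [abs_of_nonneg (hdist_nonneg _ _),
    abs_of_nonneg (add_nonneg (hdist_nonneg _ _) (hdist_nonneg _ _)), hdist_comm r q] at this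

theorem hdist_stew (x p y z : H3) (h : hdist x p + hdist p y = hdist x y) :
    sinh (hdist x p + hdist p y) * cosh (hdist p z) =
      sinh (hdist p y) * cosh (hdist x z) + sinh (hdist x p) * cosh (hdist y z) := by
  have h1 := hB_dec p x y
  have h2 := hV_sq p x
  have h3 := hV_sq p y
  have h4 := hB_dec p x z
  have h5 := hB_dec p y z
  rw [← cosh_hdist, ← h, cosh_add, ← cosh_hdist x p, ← cosh_hdist y p] at h1
  rw [← cosh_hdist x p] at h4
  rw [← cosh_hdist y p] at h5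
  rw [hdist_comm y p] at h1 h3 h5
  rw [sinh_add, cosh_hdist p z, cosh_hdist x z, cosh_hdist y z, h4, h5, hB_comm p z]
  generalize sinh (hdist x p) = a at *
  generalize sinh (hdist p y) = b at *
  have h6 : (b * hV p x 0 + a * hV p y 0) ^ 2 + (b * hV p x 1 + a * hV p y 1) ^ 2 +
      (b * hV p x 2 + a * hV p y 2) ^ 2 = 0 := by
    linear_combination b ^ 2 * h2 + a ^ 2 * h3 + 2 * a * b * h1
  have e0 : b * hV p x 0 + a * hV p y 0 = 0 := by
    nlinarith [sq_nonneg (b * hV p x 0 + a * hV p y 0), sq_nonneg (b * hV p x 1 + a * hV p y 1),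
      sq_nonneg (b * hV p x 2 + a * hV p y 2)]
  have e1 : b * hV p x 1 + a * hV p y 1 = 0 := by
    nlinarith [sq_nonneg (b * hV p x 0 + a * hV p y 0), sq_nonneg (b * hV p x 1 + a * hV p y 1),
      sq_nonneg (b * hV p x 2 + a * hV p y 2)]
  have e2 : b * hV p x 2 + a * hV p y 2 = 0 := by
    nlinarith [sq_nonneg (b * hV p x 0 + a * hV p y 0), sq_nonneg (b * hV p x 1 + a * hV p y 1),
      sq_nonneg (b * hV p x 2 + a * hV p y 2)]
  linear_combination hV p z 0 * e0 + hV p z 1 * e1 + hV p z 2 * e2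

/-- A point from its coordinates. -/
def hP (z : ℂ) (t : ℝ) (h : 0 < t) : H3 := ⟨(z, t), h⟩

theorem hP_fst (z : ℂ) (t : ℝ) (h : 0 < t) : (hP z t h).1.1 = z := rfl

theorem hP_snd (z : ℂ) (t : ℝ) (h : 0 < t) : (hP z t h).1.2 = t := rfl

theorem hB_comb (x y : H3) {α β : ℝ} (hα : 0 ≤ α) (hβ : 0 ≤ β)
    (h : α ^ 2 + β ^ 2 + 2 * α * β * hB x y = 1) :
    ∃ m : H3, ∀ r, hB m r = α * hB x r + β * hB y r := by
  have h1 := x.2
  have h2 := y.2
  have hA : 0 < α / x.1.2 + β / y.1.2 := by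
    rcases hα.eq_or_lt with rfl | h3
    · have : 0 < β := hβ.lt_of_ne (by rintro rfl; simp at h)
      positivity
    · positivity
  have hA' : α * y.1.2 + β * x.1.2 ≠ 0 := by
    have : α / x.1.2 + β / y.1.2 = (α * y.1.2 + β * x.1.2) / (x.1.2 * y.1.2) := by field_simp
    rw [this] at hA
    exact fun e => by rw [e, zero_div] at hA; exact hA.false
  refine ⟨hP ⟨(α * y.1.2 * x.1.1.re + β * x.1.2 * y.1.1.re) / (α * y.1.2 + β * x.1.2),
    (α * y.1.2 * x.1.1.im + β * x.1.2 * y.1.1.im) / (α * y.1.2 + β * x.1.2)⟩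
      (x.1.2 * y.1.2 / (α * y.1.2 + β * x.1.2)) ?_, fun r => ?_⟩
  · have : 0 < α * y.1.2 + β * x.1.2 := lt_of_le_of_ne (by positivity) hA'.symm
    positivity
  · have h3 := r.2.ne'
    trans α * hB x r + β * hB y r + x.1.2 * y.1.2 / (α * y.1.2 + β * x.1.2) / (2 * r.1.2) *
      (1 - (α ^ 2 + β ^ 2 + 2 * α * β * hB x y))
    · simp only [hB_eq, hP_fst, hP_snd]
      field_simp
      ring
    · rw [h]
      ring

theorem hdist_geod (x y : H3) : ∃ c : ℝ → H3, c 0 = x ∧ c (hdist x y) = y ∧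
    ∀ s ∈ Icc 0 (hdist x y), ∀ t ∈ Icc 0 (hdist x y), hdist (c s) (c t) = |s - t| := by
  rcases (hdist_nonneg x y).eq_or_lt with h0 | h0
  · have : x = y := eq_of_hB (by rw [← cosh_hdist, ← h0, cosh_zero])
    subst this
    refine ⟨fun _ => x, rfl, rfl, fun s hs t ht => ?_⟩
    rw [← h0, show s - t = 0 by linarith [hs.1, hs.2, ht.1, ht.2], abs_zero]
  have hL := cosh_hdist x y
  generalize hdist x y = L at *
  have s0 : 0 < sinh L := sinh_pos_iff.2 h0
  have key : ∀ s t, sinh (L - s) / sinh L * (sinh (L - t) / sinh L + sinh t / sinh L * cosh L) +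
      sinh s / sinh L * (sinh (L - t) / sinh L * cosh L + sinh t / sinh L) = cosh (s - t) := by
    intro s t
    rw [sinh_sub, sinh_sub, cosh_sub]
    trans cosh s * cosh t - sinh s * sinh t -
      sinh s * sinh t * (cosh L ^ 2 - (sinh L ^ 2 + 1)) / sinh L ^ 2
    · field_simp
      ring
    · rw [cosh_sq L]
      ring
  have hc : ∀ s, ∃ m : H3, s ∈ Icc 0 L → ∀ r,
      hB m r = sinh (L - s) / sinh L * hB x r + sinh s / sinh L * hB y r := fun s => by
    by_cases hs : s ∈ Icc 0 L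
    · obtain ⟨m, hm⟩ := hB_comb x y (div_nonneg (sinh_nonneg_iff.2 (sub_nonneg.2 hs.2)) s0.le)
        (div_nonneg (sinh_nonneg_iff.2 hs.1) s0.le) (by
          have := key s s
          rw [sub_self, cosh_zero] at this
          rw [← hL]
          linarith)
      exact ⟨m, fun _ => hm⟩
    · exact ⟨x, fun h => absurd h hs⟩
  choose c hc using hc
  refine ⟨c, eq_of_hB ?_, eq_of_hB ?_, fun s hs t ht => hdist_of ?_⟩
  · rw [hc 0 ⟨le_rfl, h0.le⟩, hB_self]
    simp [s0.ne']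
  · rw [hc L ⟨h0.le, le_rfl⟩, hB_self]
    simp [s0.ne']
  · rw [hc s hs, hB_comm x, hB_comm y, hc t ht, hc t ht, hB_self, hB_self, hB_comm y x, ← hL,
      ← key]
    ring

theorem hdist_cont (x : H3) : Continuous (hdist x) := by
  have h1 : Continuous fun p : H3 => p.1 := continuous_induced_dom
  have h2 : Continuous (hB x) := continuous_const.add (Continuous.div (by fun_prop) (by fun_prop)
    fun p => by have := x.2; have := p.2; positivity)
  exact continuousOn_arcosh.comp_continuous h2 (one_le_hB x)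

theorem hdist_cpt (x : H3) (r : ℝ) : IsCompact {y | hdist x y ≤ r} := by
  have h0 : IsInducing (fun p : H3 => p.1) := ⟨rfl⟩
  have hx := x.2
  have hc := one_le_cosh r
  have hK : IsCompact {y : H3 | hB x y ≤ cosh r} := by
    rw [h0.isCompact_iff]
    have e : (fun p : H3 => p.1) '' {y : H3 | hB x y ≤ cosh r} = {v : ℂ × ℝ |
        ‖x.1.1 - v.1‖ ^ 2 + (x.1.2 - v.2) ^ 2 ≤ (cosh r - 1) * (2 * x.1.2 * v.2)} := by
      ext v
      constructor
      · rintro ⟨y, hy, rfl⟩
        have := y.2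
        have hy' : 1 + (‖x.1.1 - y.1.1‖ ^ 2 + (x.1.2 - y.1.2) ^ 2) / (2 * x.1.2 * y.1.2) ≤
          cosh r := hy
        exact (div_le_iff₀ (by positivity)).1 (le_sub_iff_add_le'.2 hy')
      · intro hv
        have hv' : ‖x.1.1 - v.1‖ ^ 2 + (x.1.2 - v.2) ^ 2 ≤ (cosh r - 1) * (2 * x.1.2 * v.2) := hv
        have h1 : 0 < v.2 := by
          by_contra h
          have h2 : 0 ≤ x.1.2 * -v.2 := mul_nonneg hx.le (by linarith)
          nlinarith [sq_nonneg ‖x.1.1 - v.1‖, sq_nonneg v.2, mul_nonneg (sub_nonneg.2 hc) h2]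
        exact ⟨⟨v, h1⟩, le_sub_iff_add_le'.1 ((div_le_iff₀ (by positivity)).2 hv'), rfl⟩
    rw [e]
    refine (isCompact_closedBall (x.1.1, x.1.2 * cosh r) (x.1.2 * cosh r)).of_isClosed_subset
      (isClosed_le (by fun_prop) (by fun_prop)) fun v hv => ?_
    have hv' : ‖x.1.1 - v.1‖ ^ 2 + (x.1.2 - v.2) ^ 2 ≤ (cosh r - 1) * (2 * x.1.2 * v.2) := hv
    have hp : 0 ≤ x.1.2 * cosh r := by positivity
    rw [Metric.mem_closedBall, Prod.dist_eq, max_le_iff, dist_comm, dist_eq_norm, Real.dist_eq]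
    constructor
    · refine le_of_sq_le_sq ?_ hp
      nlinarith [sq_nonneg (v.2 - x.1.2 * cosh r), sq_nonneg x.1.2]
    · refine abs_le_of_sq_le_sq' ?_ hp |> abs_le.2
      nlinarith [sq_nonneg ‖x.1.1 - v.1‖, sq_nonneg x.1.2]
  refine hK.of_isClosed_subset (isClosed_le (hdist_cont x) continuous_const) fun y hy => ?_
  show hB x y ≤ cosh r
  rw [← cosh_hdist, cosh_le_cosh, abs_of_nonneg (hdist_nonneg _ _)]
  exact le_trans hy (le_abs_self r)

/-- The hyperbolic metric, with the usual topology. -/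
@[reducible]
noncomputable def hMet : MetricSpace H3 :=
  MetricSpace.ofDistTopology hdist (fun x => by rw [hdist_of (r := 0) (by simp [hB_self]), abs_zero])
    hdist_comm hdist_tri
    (fun s => ⟨fun hs x hx => by
      rcases ({y | hdist x y ≤ 1} \ s).eq_empty_or_nonempty with h | h
      · exact ⟨1, one_pos, fun y hy => by_contra fun h' =>
          (h.symm ▸ (⟨hy.le, h'⟩ : y ∈ {y | hdist x y ≤ 1} \ s) : y ∈ (∅ : Set H3))⟩
      · obtain ⟨z, hz, hm⟩ := ((hdist_cpt x 1).diff hs).exists_isMinOn h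
          (hdist_cont x).continuousOn
        have h0 : 0 < hdist x z := (hdist_nonneg x z).lt_of_ne fun e => hz.2 (by
          rwa [← eq_of_hB (p := x) (q := z) (by rw [← cosh_hdist, ← e, cosh_zero])])
        exact ⟨hdist x z, h0, fun y hy => by_contra fun h' =>
          (hm (⟨hy.le.trans hz.1, h'⟩ : y ∈ {y | hdist x y ≤ 1} \ s)).not_gt hy⟩,
      fun h => isOpen_iff_mem_nhds.2 fun x hx => by
        obtain ⟨ε, hε, h1⟩ := h x hx
        refine Filter.mem_of_superset ((isOpen_lt (hdist_cont x) continuous_const).mem_nhds ?_) h1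
        show hdist x x < ε
        rwa [hdist_of (r := 0) (by simp [hB_self]), abs_zero]⟩)
    fun x y e => eq_of_hB (by rw [← cosh_hdist, e, cosh_zero])

theorem stew_plane : Stew UpperHalfPlane := by
  have h : ∀ z w : UpperHalfPlane, dist z w =
      hdist (hP z.re z.im z.im_pos) (hP w.re w.im w.im_pos) := by
    intro z w
    rw [hdist_of (r := dist z w), abs_of_nonneg dist_nonneg]
    rw [UpperHalfPlane.cosh_dist, hB_eq, Complex.dist_eq, Complex.sq_norm, Complex.normSq_apply]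
    simp [hP_fst, hP_snd]
    ring
  intro x p y z
  simp only [h]
  exact hdist_stew _ _ _ _

theorem of_geometric {G : Type*} [Group G] {ρ : G →* Equiv.Perm H3} (h : Geometric ρ) :
    ∃ (X : Type) (_ : MetricSpace X) (σ : G →* (X ≃ᵢ X)), Nonempty X ∧ ProperSpace X ∧
      CAT UpperHalfPlane X ∧ CAT (EuclideanSpace ℝ (Fin 2)) X ∧ GeomAct σ := by
  letI := hMet
  have hS : Stew H3 := hdist_stew
  have hg : ∀ x y : H3, ∃ c, IsSeg c x y := hdist_geod
  refine ⟨H3, hMet, ⟨⟨fun g => ⟨ρ g, Isometry.of_dist_eq (h.1 g)⟩, ?_⟩, fun g g' => ?_⟩,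
    ⟨⟨(0, 1), one_pos⟩⟩, ⟨fun x r => ?_⟩, (hS.step stew_plane).cat hg, hS.step0.cat hg,
    h.2.1, h.2.2.1⟩
  · exact IsometryEquiv.ext fun x => by simp
  · exact IsometryEquiv.ext fun x => by simp
  · have e : Metric.closedBall x r = {y | hdist x y ≤ r} :=
      Set.ext fun y => Metric.mem_closedBall'
    rw [e]
    exact hdist_cpt x r

end Vale.Agent.P172
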