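import Vale.Agent.P172.Hull
import Vale.Agent.P198.Word

/-! Undistorted subgroups act geometrically on convex hulls. -/

namespace Vale.Agent.P172

open Set Real Vale.Agent.P198 Topology

attribute [local instance] hMet

variable {G H : Type*} [Group G] [Group H]

theorem hdist_self (x : H3) : hdist x x = 0 := dist_self x

theorem Geo.shift {ρ : G →* Equiv.Perm H3} (h : Geometric ρ) (a b : G) (o : H3) :
    hdist (ρ a o) (ρ b o) = hdist o (ρ (a⁻¹ * b) o) := by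
  rw [← h.1 a⁻¹]
  simp

theorem Geo.fin {ρ : G →* Equiv.Perm H3} (h : Geometric ρ) (o : H3) (r : ℝ) :
    {g : G | hdist o (ρ g o) ≤ r}.Finite :=
  (h.2.1 _ (hdist_cpt o r)).subset fun g hg => ⟨ρ g o, ⟨o, by
    show hdist o o ≤ r
    rw [hdist_self]
    exact (hdist_nonneg _ _).trans hg, rfl⟩, hg⟩

/-- The lemma of Svarc and Milnor. -/
theorem Geo.len {ρ : G →* Equiv.Perm H3} (h : Geometric ρ) {S : Finset G}
    (hS : Subgroup.closure (S : Set G) = ⊤) (o : H3) :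
    ∃ A : ℕ, ∀ g, (wlen S g : ℝ) ≤ A * (hdist o (ρ g o) + 2) := by
  obtain ⟨K, hK, hU⟩ := h.2.2.1
  obtain ⟨r, hr⟩ := hK.exists_bound_of_continuousOn (hdist_cont o).continuousOn
  have hn : ∀ p, ∃ g, hdist (ρ g o) p ≤ |r| := fun p => by
    obtain ⟨g, x, hx, rfl⟩ := mem_iUnion.1 (hU.symm ▸ mem_univ p : p ∈ ⋃ g : G, ρ g '' K)
    exact ⟨g, by rw [h.1]; exact (le_abs_self _).trans ((hr x hx).trans (le_abs_self r))⟩
  obtain ⟨A, hA⟩ := ((Geo.fin h o (2 * |r| + 1)).image (wlen S)).bddAbove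
  have hA' : ∀ g, hdist o (ρ g o) ≤ 2 * |r| + 1 → wlen S g ≤ A := fun g hg => hA ⟨g, hg, rfl⟩
  have key : ∀ n : ℕ, ∀ g p, hdist (ρ g o) p ≤ |r| → hdist o p ≤ n → wlen S g ≤ A * (n + 1) := by
    intro n
    induction n with
    | zero =>
      intro g p h1 h2
      have := hdist_tri o p (ρ g o)
      rw [hdist_comm p] at this
      simpa using hA' g (by push_cast at h2; linarith [abs_nonneg r])
    | succ n ih =>
      intro g p h1 h2
      by_cases h3 : hdist o p ≤ n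
      · exact (ih g p h1 h3).trans (Nat.mul_le_mul_left _ (by omega))
      obtain ⟨c, hc⟩ : ∃ c, IsSeg c o p := hdist_geod o p
      have hm : (n : ℝ) ∈ Icc 0 (dist o p) := ⟨Nat.cast_nonneg n, (not_le.1 h3).le⟩
      have e1 : hdist o (c n) = n := hc.left hm
      have e2 : hdist (c n) p = hdist o p - n := hc.right hm
      obtain ⟨g', hg'⟩ := hn (c n)
      have a1 := ih g' _ hg' e1.le
      have a2 := hdist_tri (ρ g' o) (c n) (ρ g o)
      have a3 := hdist_tri (c n) p (ρ g o)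
      rw [hdist_comm p] at a3
      have a4 := hA' (g'⁻¹ * g) (by rw [← Geo.shift h]; push_cast at h2; linarith)
      have a5 := wlen_mul hS g' (g'⁻¹ * g)
      rw [mul_inv_cancel_left] at a5
      rw [mul_add, mul_one]
      omega
  refine ⟨A, fun g => ?_⟩
  have h1 := key ⌈hdist o (ρ g o)⌉₊ g _ (by rw [hdist_self]; exact abs_nonneg r) (Nat.le_ceil _)
  have h2 := (Nat.ceil_lt_add_one (hdist_nonneg o (ρ g o))).le
  have h3 : (wlen S g : ℝ) ≤ A * (⌈hdist o (ρ g o)⌉₊ + 1) := by exact_mod_cast h1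
  exact h3.trans (mul_le_mul_of_nonneg_left (by linarith) (Nat.cast_nonneg A))

theorem hull_near {ρ : G →* Equiv.Perm H3} (h : Geometric ρ) {T : Finset H}
    (hT : Subgroup.closure (T : Set H) = ⊤) (φ : H →* G) (o : H3) {A : ℝ} (hA : 0 < A)
    (hφ : ∀ a, (wlen T a : ℝ) ≤ A * hdist o (ρ (φ a) o) + A) :
    ∃ D, ∀ q ∈ hull (range fun a => ρ (φ a) o), ∃ a, hdist (ρ (φ a) o) q ≤ D := by
  obtain ⟨-, ball, -, hb, -⟩ := exists_ball hT
  obtain ⟨L, hL⟩ := ((ball 1).finite_toSet.image fun a => hB o (ρ (φ a) o)).bddAbove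
  obtain ⟨D, hD⟩ := chain_far L hA
  have hsh : ∀ a b, hdist (ρ (φ a) o) (ρ (φ b) o) = hdist o (ρ (φ (a⁻¹ * b)) o) := fun a b => by
    rw [Geo.shift h, map_mul φ, map_inv φ]
  refine ⟨D, fun q hq => by_contra fun hn => ?_⟩
  push Not at hn
  have h1 := hq (ρ (φ 1) o) q (hB (ρ (φ 1) o) q / 2) (by
    rintro _ ⟨a, rfl⟩
    obtain ⟨c, c0, c1, hc⟩ := exists_geod hT 1 a
    have := hD q (fun i => ρ (φ (c i)) o) (wdist T 1 a) (fun i hi => ?_) (fun i hi j hj => ?_)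
      fun i _ => (hn _).le
    · rwa [c0, c1] at this
    · rw [← cosh_hdist, hsh, cosh_hdist]
      refine hL ⟨_, (hb 1 _).2 ?_, rfl⟩
      have := hc i (i + 1) (by omega) hi
      unfold wdist at this
      omega
    · have e : ∀ i j, i ≤ j → j ≤ wdist T 1 a → (j : ℝ) - i ≤
          A * hdist (ρ (φ (c i)) o) (ρ (φ (c j)) o) + A := fun i j h1 h2 => by
        have k := hφ ((c i)⁻¹ * c j)
        have k2 : wlen T ((c i)⁻¹ * c j) = j - i := hc i j h1 h2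
        rwa [k2, Nat.cast_sub h1, ← hsh] at k
      rcases le_total i j with h1 | h1
      · rw [abs_sub_comm, abs_of_nonneg (sub_nonneg.2 (Nat.cast_le.2 h1))]
        exact e i j h1 hj
      · rw [abs_of_nonneg (sub_nonneg.2 (Nat.cast_le.2 h1)), hdist_comm]
        exact e j i h1 hi)
  rw [hB_self, hB_comm] at h1
  linarith [hB_pos (ρ (φ 1) o) q]

theorem of_undistorted {ρ : G →* Equiv.Perm H3} (h : Geometric ρ) {S : Finset G}
    (hS : Subgroup.closure (S : Set G) = ⊤) {T : Finset H}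
    (hT : Subgroup.closure (T : Set H) = ⊤) (φ : H →* G) {A : ℕ}
    (hφ : ∀ a, wlen T a ≤ A * wlen S (φ a) + A) :
    ∃ (X : Type) (_ : MetricSpace X) (σ : H →* (X ≃ᵢ X)), Nonempty X ∧ ProperSpace X ∧
      CAT UpperHalfPlane X ∧ CAT (EuclideanSpace ℝ (Fin 2)) X ∧ GeomAct σ := by
  obtain ⟨o⟩ : Nonempty H3 := ⟨hP 0 1 one_pos⟩
  obtain ⟨B, hB'⟩ := Geo.len h hS o
  have h1 : ∀ a, (wlen T a : ℝ) ≤ (2 * A * B + A + 1) * hdist o (ρ (φ a) o) +
      (2 * A * B + A + 1) := fun a => by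
    have a1 : (wlen T a : ℝ) ≤ A * wlen S (φ a) + A := by exact_mod_cast hφ a
    have a2 := mul_le_mul_of_nonneg_left (hB' (φ a)) (Nat.cast_nonneg A)
    have a3 : 0 ≤ ((A : ℝ) * B + A + 1) * hdist o (ρ (φ a) o) :=
      mul_nonneg (by positivity) (hdist_nonneg _ _)
    linarith
  obtain ⟨D, hD⟩ := hull_near h hT φ o (by positivity) h1
  set Y := hull (range fun a => ρ (φ a) o) with hY
  have hiso : ∀ g p q, hB (ρ g p) (ρ g q) = hB p q := fun g p q => by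
    rw [← cosh_hdist, h.1, cosh_hdist]
  have hinv : ∀ g p, ρ g (ρ g⁻¹ p) = p := fun g p => by simp
  have hinv' : ∀ g p, ρ g⁻¹ (ρ g p) = p := fun g p => by simp
  have hY1 : ∀ a, ∀ q ∈ Y, ρ (φ a) q ∈ Y := fun a q hq u v α hz => by
    rw [← hinv (φ a) u, ← hinv (φ a) v, hiso, hiso]
    refine hq _ _ α ?_
    rintro _ ⟨b, rfl⟩
    have : hB (ρ (φ (a * b)) o) u ≤ α * hB (ρ (φ (a * b)) o) v := hz _ ⟨a * b, rfl⟩
    rwa [← hinv (φ a) u, ← hinv (φ a) v, map_mul φ, map_mul ρ, Equiv.Perm.mul_apply, hiso,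
      hiso] at this
  have ho : o ∈ Y := fun u v α hz => by simpa using hz _ ⟨1, rfl⟩
  have hS' : Stew Y := fun x p y z => hdist_stew x.1 p.1 y.1 z.1
  have hcl : IsClosedEmbedding (Subtype.val : Y → H3) :=
    (hull_closed _).isClosedEmbedding_subtypeVal
  have hb : ∀ (x : Y) r, IsCompact (Metric.closedBall x r) := fun x r => by
    have e : Metric.closedBall x r = Subtype.val ⁻¹' {y | hdist x.1 y ≤ r} :=
      Set.ext fun y => Metric.mem_closedBall'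
    rw [e]
    exact hcl.isCompact_preimage (hdist_cpt _ r)
  have hg : ∀ x y : Y, ∃ c, IsSeg c x y := fun x y => by
    classical
    obtain ⟨c, hc⟩ : ∃ c, IsSeg c x.1 y.1 := hdist_geod x.1 y.1
    have hm : ∀ s ∈ Icc 0 (dist x y), c s ∈ Y := fun s hs => hull_conv x.2 y.2 (by
      have e1 : hdist x.1 (c s) = s := hc.left hs
      have e2 : hdist (c s) y.1 = hdist x.1 y.1 - s := hc.right hs
      rw [e1, e2]
      ring)
    refine ⟨fun s => if hs : s ∈ Icc 0 (dist x y) then ⟨c s, hm s hs⟩ else x, ?_, ?_,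
      fun s hs t ht => ?_⟩
    · simp only [dif_pos (left_mem_Icc.2 (dist_nonneg : 0 ≤ dist x y))]
      exact Subtype.ext hc.1
    · simp only [dif_pos (right_mem_Icc.2 (dist_nonneg : 0 ≤ dist x y))]
      exact Subtype.ext hc.2.1
    · simp only [dif_pos hs, dif_pos ht]
      exact hc.2.2 s hs t ht
  refine ⟨Y, inferInstance, MonoidHom.mk' (fun a => ⟨⟨fun q => ⟨ρ (φ a) q.1, hY1 a _ q.2⟩,
    fun q => ⟨ρ (φ a⁻¹) q.1, hY1 _ _ q.2⟩, fun q => Subtype.ext ?_, fun q => Subtype.ext ?_⟩,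
    Isometry.of_dist_eq fun p q => h.1 _ _ _⟩) fun a b => IsometryEquiv.ext fun q =>
      Subtype.ext ?_, ⟨⟨o, ho⟩⟩, ⟨hb⟩, (hS'.step stew_plane).cat hg, hS'.step0.cat hg,
    fun K hK => ?_, Metric.closedBall ⟨o, ho⟩ D, hb _ _, eq_univ_of_forall fun q => ?_⟩
  · show ρ (φ a⁻¹) (ρ (φ a) q.1) = q.1
    rw [map_inv φ, hinv']
  · show ρ (φ a) (ρ (φ a⁻¹) q.1) = q.1
    rw [map_inv φ, hinv]
  · show ρ (φ (a * b)) q.1 = ρ (φ a) (ρ (φ b) q.1)
    rw [map_mul φ, map_mul ρ, Equiv.Perm.mul_apply]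
  · obtain ⟨N, hN⟩ := ((h.2.1 _ (hK.image continuous_subtype_val)).image (wlen S)).bddAbove
    obtain ⟨-, ball, -, hb, -⟩ := exists_ball hT
    refine (ball (A * N + A)).finite_toSet.subset ?_
    rintro a ⟨_, ⟨x, hx, rfl⟩, hx'⟩
    have : wlen S (φ a) ≤ N := hN ⟨φ a, ⟨ρ (φ a) x.1, ⟨x.1, ⟨x, hx, rfl⟩, rfl⟩, _, hx', rfl⟩, rfl⟩
    exact (hb _ a).2 ((hφ a).trans (Nat.add_le_add_right (Nat.mul_le_mul_left _ this) _))
  · obtain ⟨a, ha⟩ := hD q.1 q.2
    refine mem_iUnion.2 ⟨a, ⟨ρ (φ a⁻¹) q.1, hY1 _ _ q.2⟩, Metric.mem_closedBall'.2 ?_,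
      Subtype.ext ?_⟩
    · show hdist o (ρ (φ a⁻¹) q.1) ≤ D
      rwa [← h.1 (φ a), map_inv φ, hinv]
    · show ρ (φ a) (ρ (φ a⁻¹) q.1) = q.1
      rw [map_inv φ, hinv]

end Vale.Agent.P172
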